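import Vale.Agent.Lib.P173.Setup

/-! # P173: basic API of the graph product `W` -/

namespace Vale.Agent.P173
namespace ColGraph

variable (K : ColGraph) (A : Type) [CommGroup A]

theorem of_mul (v : K.V) (a b : A) : K.of A v (a * b) = K.of A v a * K.of A v b := by
  have h := PresentedGroup.one_of_mem (rels := K.wrel A) (x := FreeGroup.of (v, a) *
    FreeGroup.of (v, b) * (FreeGroup.of (v, a * b))⁻¹) (Or.inl ⟨v, a, b, rfl⟩)
  rw [map_mul, map_mul, map_inv, mul_inv_eq_one] at h
  exact h.symm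

theorem of_one (v : K.V) : K.of A v 1 = 1 := by
  have h := K.of_mul A v 1 1
  rw [one_mul] at h
  exact (mul_eq_left.mp h.symm)

theorem of_inv (v : K.V) (a : A) : K.of A v a⁻¹ = (K.of A v a)⁻¹ := by
  apply eq_inv_of_mul_eq_one_left
  rw [← K.of_mul A, inv_mul_cancel, K.of_one A]

theorem of_comm {v w : K.V} (h : K.adj v w) (a b : A) :
    Commute (K.of A v a) (K.of A w b) := by
  have h1 := PresentedGroup.one_of_mem (rels := K.wrel A) (x := FreeGroup.of (v, a) *
    FreeGroup.of (w, b) * (FreeGroup.of (v, a))⁻¹ * (FreeGroup.of (w, b))⁻¹)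
    (Or.inr ⟨v, w, a, b, h, rfl⟩)
  rw [map_mul, map_mul, map_mul, map_inv, map_inv, mul_inv_eq_one, mul_inv_eq_iff_eq_mul] at h1
  exact h1

/-- universal property of `W` -/
theorem exists_lift {H : Type} [Group H] (f : K.V → A →* H)
    (hf : ∀ v w, K.adj v w → ∀ a b, Commute (f v a) (f w b)) :
    ∃ F : K.W A →* H, ∀ v a, F (K.of A v a) = f v a := by
  refine ⟨PresentedGroup.toGroup (f := fun x : K.V × A => f x.1 x.2) ?_, fun v a => ?_⟩
  · rintro x (⟨v, a, b, rfl⟩ | ⟨v, w, a, b, h, rfl⟩)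
    · simp only [map_mul, map_inv, FreeGroup.lift_apply_of]
      rw [mul_inv_cancel]
    · simp only [map_mul, map_inv, FreeGroup.lift_apply_of]
      rw [mul_inv_eq_one, mul_inv_eq_iff_eq_mul]
      exact hf v w h a b
  · exact PresentedGroup.toGroup.of _

/-- every element is a product of letters -/
theorem W_induction {p : K.W A → Prop} (h1 : p 1)
    (hm : ∀ w v a, p w → p (w * K.of A v a)) (w : K.W A) : p w := by
  let S : Subgroup (K.W A) :=
    { carrier := {u | (∀ w, p w → p (w * u)) ∧ ∀ w, p w → p (w * u⁻¹)}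
      mul_mem' := by
        rintro u u' ⟨h2, h3⟩ ⟨h4, h5⟩
        refine ⟨fun w hw => ?_, fun w hw => ?_⟩
        · rw [← mul_assoc]; exact h4 _ (h2 _ hw)
        · rw [mul_inv_rev, ← mul_assoc]; exact h3 _ (h5 _ hw)
      one_mem' := by
        refine ⟨fun w hw => ?_, fun w hw => ?_⟩
        · rw [mul_one]; exact hw
        · rw [inv_one, mul_one]; exact hw
      inv_mem' := by
        rintro u ⟨h2, h3⟩
        refine ⟨h3, fun w hw => ?_⟩
        rw [inv_inv]; exact h2 w hw }
  have h2 : w ∈ S := by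
    apply PresentedGroup.generated_by
    rintro ⟨v, a⟩
    refine ⟨fun w hw => hm w v a hw, fun w hw => ?_⟩
    have h3 : (PresentedGroup.of (v, a) : K.W A)⁻¹ = K.of A v a⁻¹ := (K.of_inv A v a).symm
    rw [h3]
    exact hm w v a⁻¹ hw
  have h3 := h2.1 1 h1
  rwa [one_mul] at h3

theorem exists_list (w : K.W A) :
    ∃ l : List (K.V × A), w = (l.map fun x => K.of A x.1 x.2).prod := by
  induction w using K.W_induction A with
  | h1 => exact ⟨[], by simp⟩
  | hm w v a ih =>
    obtain ⟨l, rfl⟩ := ih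
    exact ⟨l ++ [(v, a)], by simp⟩

theorem pi_of (v : K.V) (a : A) : K.pi A (K.of A v a) = Pi.mulSingle (K.col v) a :=
  PresentedGroup.toGroup.of _

/-- `G` meets every conjugate of `A_s` (`s` a clique) trivially -/
theorem asub_inf (s : K.Clq) (w : K.W A) (hw : w ∈ K.asub A s) (h : K.pi A w = 1) : w = 1 := by
  classical
  let φ : {v // v ∈ s.1} → A →* K.W A := fun v =>
    MonoidHom.mk' (fun a => K.of A v.1 a) (fun a b => K.of_mul A v.1 a b)
  have hc : Pairwise fun i j => ∀ x y, Commute (φ i x) (φ j y) := by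
    intro i j hij x y
    have hne : i.1 ≠ j.1 := fun h' => hij (Subtype.ext h')
    exact K.of_comm A (s.2.2 i.1 i.2 j.1 j.2 hne) x y
  let Φ : ({v // v ∈ s.1} → A) →* K.W A := MonoidHom.noncommPiCoprod φ hc
  have hΦ : ∀ (i : {v // v ∈ s.1}) (a : A), Φ (Pi.mulSingle i a) = K.of A i.1 a := fun i a =>
    MonoidHom.noncommPiCoprod_mulSingle φ i a
  have hle : K.asub A s ≤ Φ.range := by
    unfold asub wsub
    rw [Subgroup.closure_le]
    rintro x ⟨v, hv, b, -, rfl⟩
    exact ⟨Pi.mulSingle ⟨v, hv⟩ b, hΦ ⟨v, hv⟩ b⟩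
  obtain ⟨b, rfl⟩ := hle hw
  have hb : ∀ i : {v // v ∈ s.1}, b i = 1 := by
    intro i
    have h1 : ((Pi.evalMonoidHom (fun _ : Fin 3 => A) (K.col i.1)).comp (K.pi A)).comp Φ =
        Pi.evalMonoidHom (fun _ : {v // v ∈ s.1} => A) i := by
      apply MonoidHom.pi_ext
      intro j x
      rw [MonoidHom.comp_apply, MonoidHom.comp_apply, hΦ, K.pi_of A, Pi.evalMonoidHom_apply,
        Pi.evalMonoidHom_apply]
      by_cases hij : j = i
      · subst hij
        rw [Pi.mulSingle_eq_same, Pi.mulSingle_eq_same]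
      · have hne : i.1 ≠ j.1 := fun h' => hij (Subtype.ext h'.symm)
        have hcol := K.proper _ _ (s.2.2 i.1 i.2 j.1 j.2 hne)
        rw [Pi.mulSingle_eq_of_ne (Ne.symm hij), Pi.mulSingle_eq_of_ne hcol]
    have h2 := DFunLike.congr_fun h1 b
    rw [MonoidHom.comp_apply, MonoidHom.comp_apply, h] at h2
    simpa using h2.symm
  have hb1 : b = 1 := funext hb
  rw [hb1, map_one]

theorem asub_mono {s t : K.Clq} (h : s.1 ⊆ t.1) : K.asub A s ≤ K.asub A t := by
  unfold asub wsub
  apply Subgroup.closure_mono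
  rintro x ⟨v, hv, b, hb, rfl⟩
  exact ⟨v, h hv, b, hb, rfl⟩

/-- a function on `W` which is invariant under right multiplication by the letters of the
clique `s` is invariant under `A_s` -/
theorem inv_asub {α : Type} (s : K.Clq) (f : K.W A → α)
    (hf : ∀ w, ∀ v ∈ s.1, ∀ a, f (w * K.of A v a) = f w) (w x : K.W A)
    (hx : x ∈ K.asub A s) : f (w * x) = f w := by
  unfold asub wsub at hx
  induction hx using Subgroup.closure_induction generalizing w with
  | mem x hx =>
    obtain ⟨v, hv, b, -, rfl⟩ := hx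
    exact hf w v hv b
  | one => rw [mul_one]
  | mul x y _ _ hx hy => rw [← mul_assoc, hy, hx]
  | inv x _ hx =>
    have := hx (w * x⁻¹)
    rw [inv_mul_cancel_right] at this
    exact this.symm

end ColGraph
end Vale.Agent.P173
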