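import Vale.Agent.Lib.P173.Setup

/-!
# P173: the parts of the proof as propositions

Each part is proved independently of the others; `Main.lean` assembles them.
-/

namespace Vale.Agent.P173

open CategoryTheory

/-- Part W (normal form by pilings): a length function and descent sets on the graph product. -/
def PartW : Prop := ∀ (K : ColGraph) (A : Type) [CommGroup A],
  ∃ (ℓ : K.W A → ℕ) (In : K.W A → Set K.V),
    (∀ w, ∀ v ∈ In w, ∀ u ∈ In w, v ≠ u → K.adj v u) ∧
    (∀ w v, ∃ a : A, v ∉ In (w * K.of A v a)) ∧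
    (∀ w v a, v ∉ In w → a ≠ 1 →
      v ∈ In (w * K.of A v a) ∧ ℓ (w * K.of A v a) = ℓ w + 1) ∧
    (∀ w u v a, K.adj u v → (u ∈ In (w * K.of A v a) ↔ u ∈ In w))

/-- Part A (upper bound): if the flag complex of `K` is acyclic then `G` has cohomological
dimension at most two. -/
def PartA : Prop := ∀ (K : ColGraph) (A : Type) [CommGroup A], Nonempty K.V → PartW →
  K.H0 → K.H1 → K.H2 →
  HasProjectiveDimensionLE
    (ModuleCat.of (MonoidAlgebra ℤ (K.G A)) (Representation.trivial ℤ (K.G A) ℤ).asModule) 2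

/-- Part L (lower bound): `K` contains a 4-cycle with two pairs of non-adjacent opposite
vertices of equal colours, so `G` contains `ℤ²`, so its cohomological dimension is not `≤ 1`. -/
def PartL : Prop := ∀ (K : ColGraph) (A : Type) [CommGroup A] (a : A), a ≠ 1 → a * a = 1 →
  (∀ (B : Subgroup A) (x : A), x ∉ B → ∃ φ : A →* Multiplicative (ZMod 2),
    (∀ b ∈ B, φ b = 1) ∧ φ x ≠ 1) →
  ∀ v v' w w' : K.V, v ≠ v' → w ≠ w' → K.col v = K.col v' → K.col w = K.col w' →
  K.adj v w → K.adj v w' → K.adj v' w → K.adj v' w' →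
  ¬ HasProjectiveDimensionLE
    (ModuleCat.of (MonoidAlgebra ℤ (K.G A)) (Representation.trivial ℤ (K.G A) ℤ).asModule) 1

/-- Part K: the complex `K`. -/
def PartK : Prop := ∃ K : ColGraph, Countable K.V ∧ Nonempty K.V ∧ K.Pure ∧
  K.H0 ∧ K.H1 ∧ K.H2 ∧ K.FlagH1 ∧ Nonempty (UniCocycle K) ∧
  ∃ v v' w w' : K.V, v ≠ v' ∧ w ≠ w' ∧ K.col v = K.col v' ∧ K.col w = K.col w' ∧
    K.adj v w ∧ K.adj v w' ∧ K.adj v' w ∧ K.adj v' w'

/-- Part B1: every contractible 2-complex with a free action of `G` contains a good cover with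
nerve `K`. -/
def PartB1 : Prop := ∀ (K : ColGraph) (A : Type) [CommGroup A], Countable K.V → Nonempty K.V →
  K.Pure → (∀ a : A, a * a = 1) → Cardinal.aleph 3 ≤ Cardinal.mk A →
  ∀ (X : TwoComplex) (_ : FreeAct (K.G A) X), X.IsContractible → Nonempty (GoodCover K X)

/-- Part B2: a contractible 2-complex contains no good cover whose nerve `K` has `H¹ = 0` and a
nontrivial locally unipotent cocycle. -/
def PartB2 : Prop := ∀ (K : ColGraph), K.FlagH1 → Nonempty (UniCocycle K) →
  ∀ X : TwoComplex, X.IsContractible → GoodCover K X → False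

/-- The final statement. -/
def Goal : Prop := ∃ (G : Type) (_ : Group G), cohomDim G = 2 ∧ ¬ GeomDimLETwo G

end Vale.Agent.P173
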