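import Vale.Agent.Lib.P173.Defs

/-!
# P173: common set-up of the proof (not used in the final statement)

See `PROOF.md` in this folder.
-/

namespace Vale.Agent.P173

/-- A graph with a proper colouring by `Fin 3`; its flag complex is the 2-complex `K`. -/
structure ColGraph where
  V : Type
  adj : V → V → Prop
  symm : ∀ v w, adj v w → adj w v
  col : V → Fin 3
  proper : ∀ v w, adj v w → col v ≠ col w

namespace ColGraph

variable (K : ColGraph)

lemma ne_of_adj {v w : K.V} (h : K.adj v w) : v ≠ w := by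
  rintro rfl
  exact K.proper v v h rfl

/-- A triangle of `K`: `t i` is the vertex of colour `i`. -/
structure Tri where
  t : Fin 3 → K.V
  col_eq : ∀ i, K.col (t i) = i
  adj : ∀ i j, i ≠ j → K.adj (t i) (t j)

/-- Nonempty cliques of `K` (the simplices of the flag complex). -/
def Clq : Type :=
  {s : Finset K.V // s.Nonempty ∧ ∀ v ∈ s, ∀ w ∈ s, v ≠ w → K.adj v w}

/-- strict inclusion of cliques -/
def lt (s t : K.Clq) : Prop := s.1 ⊂ t.1

/-- `H⁰` of the poset of cliques is trivial (connectivity). -/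
def H0 : Prop := ∀ (B : Type) [AddCommGroup B] (f : K.Clq → B),
  (∀ s t, K.lt s t → f s = f t) → ∀ s t, f s = f t

/-- `H¹ = 0` for the order complex of the poset of cliques, all coefficients. -/
def H1 : Prop := ∀ (B : Type) [AddCommGroup B] (g : K.Clq → K.Clq → B),
  (∀ s t u, K.lt s t → K.lt t u → g s u = g s t + g t u) →
  ∃ f : K.Clq → B, ∀ s t, K.lt s t → g s t = f t - f s

/-- `H² = 0` for the order complex of the poset of cliques (which has dimension 2), all
coefficients: every 2-cochain is a coboundary. -/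
def H2 : Prop := ∀ (B : Type) [AddCommGroup B] (h : K.Clq → K.Clq → K.Clq → B),
  ∃ g : K.Clq → K.Clq → B, ∀ s t u, K.lt s t → K.lt t u → h s t u = g s t + g t u - g s u

/-- `H¹ = 0` for the flag complex, in terms of functions on ordered adjacent pairs. -/
def FlagH1 : Prop := ∀ (B : Type) [AddCommGroup B] (g : K.V → K.V → B),
  (∀ v w, K.adj v w → g w v = - g v w) →
  (∀ u v w, K.adj u v → K.adj v w → K.adj u w → g u w = g u v + g v w) →
  ∃ f : K.V → B, ∀ v w, K.adj v w → g v w = f w - f v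

/-- every vertex and every edge lies in a triangle -/
def Pure : Prop := (∀ v : K.V, ∃ T : K.Tri, T.t (K.col v) = v) ∧
  (∀ v w : K.V, K.adj v w → ∃ T : K.Tri, T.t (K.col v) = v ∧ T.t (K.col w) = w)

/-! ### the graph product `W` and the group `G` -/

variable (A : Type) [CommGroup A]

/-- relators of the graph product over `K` with all vertex groups `A` -/
def wrel : Set (FreeGroup (K.V × A)) :=
  {x | ∃ v a b, x = FreeGroup.of (v, a) * FreeGroup.of (v, b) * (FreeGroup.of (v, a * b))⁻¹} ∪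
  {x | ∃ v w a b, K.adj v w ∧ x = FreeGroup.of (v, a) * FreeGroup.of (w, b) *
    (FreeGroup.of (v, a))⁻¹ * (FreeGroup.of (w, b))⁻¹}

/-- the graph product -/
abbrev W : Type := PresentedGroup (K.wrel A)

/-- the letter `a` at the vertex `v` -/
def of (v : K.V) (a : A) : K.W A := PresentedGroup.of (v, a)

/-- the colour projection `W → A³` -/
noncomputable def pi : K.W A →* (Fin 3 → A) :=
  PresentedGroup.toGroup (f := fun x : K.V × A => Pi.mulSingle (K.col x.1) x.2) (by
    rintro x (⟨v, a, b, rfl⟩ | ⟨v, w, a, b, h, rfl⟩)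
    · simp only [map_mul, map_inv, FreeGroup.lift_apply_of]
      rw [← Pi.mulSingle_mul, mul_inv_cancel]
    · simp only [map_mul, map_inv, FreeGroup.lift_apply_of]
      rw [mul_comm (Pi.mulSingle (K.col v) a : Fin 3 → A), mul_assoc (Pi.mulSingle _ _),
        mul_inv_cancel, mul_one, mul_inv_cancel])

/-- the group `G = ker (W → A³)` -/
def G : Type := (K.pi A).ker

noncomputable instance : Group (K.G A) := inferInstanceAs (Group (K.pi A).ker)

/-- the inclusion `G → W` -/
noncomputable def incl : K.G A →* K.W A := (K.pi A).ker.subtype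

/-- the subgroup of `W` generated by the letters `(v, b)` with `v ∈ s`, `b ∈ B` -/
def wsub (s : Set K.V) (B : Set A) : Subgroup (K.W A) :=
  Subgroup.closure {x | ∃ v ∈ s, ∃ b ∈ B, x = K.of A v b}

/-- the subgroup `A_s` of `W` generated by the vertex groups in the clique `s` -/
def asub (s : K.Clq) : Subgroup (K.W A) := K.wsub A (s.1 : Set K.V) Set.univ

end ColGraph

/-- product of a family of group elements along an edge path (holonomy) -/
def hol {E H : Type} [Group H] (c : E → H) (p : List (E × Bool)) : H :=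
  (p.map fun eb => if eb.2 then c eb.1 else (c eb.1)⁻¹).prod

/-- the 1-chain of a list of oriented edges (`X.chain p = chainL p` by `rfl`) -/
noncomputable def chainL {E : Type} (p : List (E × Bool)) : E →₀ ℤ :=
  (p.map fun eb => Finsupp.single eb.1 (if eb.2 then (1 : ℤ) else -1)).sum

/-! ### pentagonal complexes -/

/-- A regular cell complex all of whose faces are pentagons. `fv f k` and `fe f k` are the
vertices and the edges of the face `f`, the edge `fe f k` joins `fv f k` and `fv f (k+1)`, and it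
is oriented from `fv f k` to `fv f (k+1)` iff `o f k = true`. -/
structure Penta where
  V0 : Type
  E0 : Type
  F0 : Type
  s : E0 → V0
  t : E0 → V0
  s_ne_t : ∀ e, s e ≠ t e
  fv : F0 → ZMod 5 → V0
  fe : F0 → ZMod 5 → E0
  o : F0 → ZMod 5 → Bool
  fv_inj : ∀ f, Function.Injective (fv f)
  fe_inj : ∀ f, Function.Injective (fe f)
  s_fe : ∀ f k, s (fe f k) = fv f (if o f k then k else k + 1)
  t_fe : ∀ f k, t (fe f k) = fv f (if o f k then k + 1 else k)

namespace Penta

variable (X : Penta)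

/-- boundary path of a face -/
def bd (f : X.F0) : List (X.E0 × Bool) :=
  [(X.fe f 0, X.o f 0), (X.fe f 1, X.o f 1), (X.fe f 2, X.o f 2), (X.fe f 3, X.o f 3),
    (X.fe f 4, X.o f 4)]

/-- sum of an abelian 1-cochain over the boundary of a face -/
def bsum {B : Type} [AddCommGroup B] (c : X.E0 → B) (f : X.F0) : B :=
  ((X.bd f).map fun eb => if eb.2 then c eb.1 else - c eb.1).sum

/-- incidence (closure relation) of cells of different dimensions -/
def inc : X.V0 ⊕ X.E0 ⊕ X.F0 → X.V0 ⊕ X.E0 ⊕ X.F0 → Prop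
  | .inl a, .inr (.inl b) => X.s b = a ∨ X.t b = a
  | .inl a, .inr (.inr f) => ∃ k, X.fv f k = a
  | .inr (.inl b), .inr (.inr f) => ∃ k, X.fe f k = b
  | _, _ => False

/-- dimension of a cell -/
def dim : X.V0 ⊕ X.E0 ⊕ X.F0 → Fin 3
  | .inl _ => 0
  | .inr (.inl _) => 1
  | .inr (.inr _) => 2

/-- the coloured graph whose flag complex is the barycentric subdivision of `X` -/
def graph : ColGraph where
  V := X.V0 ⊕ X.E0 ⊕ X.F0
  adj x y := X.inc x y ∨ X.inc y x
  symm _ _ h := h.symm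
  col := X.dim
  proper := by
    rintro (a | b | f) (a' | b' | f') h <;> simp_all [inc, dim]

def PH0 : Prop := ∀ (B : Type) [AddCommGroup B] (φ : X.V0 → B),
  (∀ e, φ (X.s e) = φ (X.t e)) → ∀ x y, φ x = φ y

def PH1 : Prop := ∀ (B : Type) [AddCommGroup B] (c : X.E0 → B),
  (∀ f, X.bsum c f = 0) → ∃ φ : X.V0 → B, ∀ e, c e = φ (X.t e) - φ (X.s e)

def PH2 : Prop := ∀ (B : Type) [AddCommGroup B] (h : X.F0 → B),
  ∃ c : X.E0 → B, ∀ f, X.bsum c f = h f

end Penta

/-- `H² = 0` of the flag complex, in terms of functions on triangles. -/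
def ColGraph.FlagH2 (K : ColGraph) : Prop := ∀ (B : Type) [AddCommGroup B] (h : K.Tri → B),
  ∃ g : K.V → K.V → B, ∀ T : K.Tri, h T = g (T.t 0) (T.t 1) + g (T.t 1) (T.t 2) - g (T.t 0) (T.t 2)

/-- connectivity of the graph -/
def ColGraph.FlagH0 (K : ColGraph) : Prop := ∀ (B : Type) [AddCommGroup B] (f : K.V → B),
  (∀ v w, K.adj v w → f v = f w) → ∀ v w, f v = f w

/-! ### unipotent cocycles -/

/-- A locally unipotent cocycle on the flag complex of `K`, with a closed walk of length 4 on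
which it is nontrivial. -/
structure UniCocycle (K : ColGraph) where
  R : Type
  [ring : Ring R]
  [alg : Algebra ℚ R]
  γ : K.V → K.V → Rˣ
  inv : ∀ v w, K.adj v w → γ w v = (γ v w)⁻¹
  coc : ∀ u v w, K.adj u v → K.adj v w → K.adj u w → γ u w = γ u v * γ v w
  loc : ∀ S : Finset Rˣ, (∀ g ∈ S, g ∈ Subgroup.closure {g | ∃ v w, K.adj v w ∧ g = γ v w}) →
    ∃ (J : Submodule ℚ R) (n : ℕ), (∀ x ∈ J, ∀ y ∈ J, x * y ∈ J) ∧
      (∀ l : List R, (∀ x ∈ l, x ∈ J) → n ≤ l.length → l.prod = 0) ∧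
      ∀ g ∈ S, (g : R) - 1 ∈ J
  v0 : K.V
  v1 : K.V
  v2 : K.V
  v3 : K.V
  a01 : K.adj v0 v1
  a12 : K.adj v1 v2
  a23 : K.adj v2 v3
  a30 : K.adj v3 v0
  nontriv : γ v0 v1 * γ v1 v2 * γ v2 v3 * γ v3 v0 ≠ 1

attribute [instance] UniCocycle.ring UniCocycle.alg

/-! ### subcomplexes and good covers -/

/-- a subcomplex of a 2-complex -/
structure Sub (X : TwoComplex) where
  v : Set X.V
  e : Set X.E
  f : Set X.F
  src_mem : ∀ x ∈ e, X.src x ∈ v
  tgt_mem : ∀ x ∈ e, X.tgt x ∈ v
  base_mem : ∀ x ∈ f, X.base x ∈ v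
  bd_mem : ∀ x ∈ f, ∀ eb ∈ X.bd x, eb.1 ∈ e

namespace Sub

variable {X : TwoComplex}

/-- nonempty and connected -/
def Conn (Y : Sub X) : Prop := Y.v.Nonempty ∧ ∀ x ∈ Y.v, ∀ y ∈ Y.v,
  ∃ p, X.Path x p y ∧ ∀ eb ∈ p, eb.1 ∈ Y.e

/-- simply connected, in the form: each closed path in `Y` is a consequence of finitely many
faces of `Y` (tested by arbitrary group-valued edge labellings) -/
def SC (Y : Sub X) : Prop := ∀ x ∈ Y.v, ∀ p, X.Path x p x → (∀ eb ∈ p, eb.1 ∈ Y.e) →
  ∃ S : Finset X.F, (∀ f ∈ S, f ∈ Y.f) ∧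
    ∀ (H : Type) [Group H] (c : X.E → H), (∀ f ∈ S, hol c (X.bd f) = 1) → hol c p = 1

/-- intersection of subcomplexes -/
def inter (Y Z : Sub X) : Sub X where
  v := Y.v ∩ Z.v
  e := Y.e ∩ Z.e
  f := Y.f ∩ Z.f
  src_mem x hx := ⟨Y.src_mem x hx.1, Z.src_mem x hx.2⟩
  tgt_mem x hx := ⟨Y.tgt_mem x hx.1, Z.tgt_mem x hx.2⟩
  base_mem x hx := ⟨Y.base_mem x hx.1, Z.base_mem x hx.2⟩
  bd_mem x hx eb h := ⟨Y.bd_mem x hx.1 eb h, Z.bd_mem x hx.2 eb h⟩

end Sub

/-- A family of subcomplexes of `X` with nerve the flag complex of `K`, connected and simply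
connected, with connected double intersections. -/
structure GoodCover (K : ColGraph) (X : TwoComplex) where
  Y : K.V → Sub X
  conn : ∀ v, (Y v).Conn
  sc : ∀ v, (Y v).SC
  disj : ∀ v w x, v ≠ w → ¬ K.adj v w → x ∈ (Y v).v → x ∉ (Y w).v
  inter : ∀ v w, K.adj v w → ((Y v).inter (Y w)).Conn
  tri : ∀ T : K.Tri, ∃ x, ∀ i, x ∈ (Y (T.t i)).v

end Vale.Agent.P173
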