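import Mathlib

/-!
# P173 (Eilenberg-Ganea): definitions used in the statement

A combinatorial 2-complex (vertices, oriented edges, faces attached along closed edge paths),
its edge-path homotopy, its second homology, free group actions, and the cohomological
dimension of a group (the projective dimension of the trivial module over the group ring).
-/

namespace Vale.Agent.P173

open CategoryTheory

/-- `IsPath src tgt x p y`: the list `p` of oriented edges is an edge path from `x` to `y`.
The pair `(e, true)` runs through the edge `e` from `src e` to `tgt e`, the pair `(e, false)`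
runs through it backwards. -/
def IsPath {V E : Type} (src tgt : E → V) : V → List (E × Bool) → V → Prop
  | x, [], y => x = y
  | x, (e, true) :: p, y => src e = x ∧ IsPath src tgt (tgt e) p y
  | x, (e, false) :: p, y => tgt e = x ∧ IsPath src tgt (src e) p y

/-- A combinatorial 2-complex (2-dimensional CW complex whose 2-cells are attached along
closed edge paths): a graph with vertices `V` and oriented edges `E`, and a set `F` of faces;
the face `f` is attached along the closed edge path `bd f` at the vertex `base f`. -/
structure TwoComplex where
  V : Type
  E : Type
  F : Type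
  src : E → V
  tgt : E → V
  base : F → V
  bd : F → List (E × Bool)
  closed : ∀ f, IsPath src tgt (base f) (bd f) (base f)

namespace TwoComplex

variable (X : TwoComplex)

/-- `X.Path x p y`: `p` is an edge path from `x` to `y` in `X`. -/
abbrev Path (x : X.V) (p : List (X.E × Bool)) (y : X.V) : Prop :=
  IsPath X.src X.tgt x p y

/-- The elementary homotopies of edge paths: cancel a backtracking, or remove the boundary
path of a face. -/
inductive Step : List (X.E × Bool) → List (X.E × Bool) → Prop
  | cancel (l r : List (X.E × Bool)) (e : X.E) (b : Bool) :
      Step (l ++ (e, b) :: (e, !b) :: r) (l ++ r)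
  | face (l r : List (X.E × Bool)) (f : X.F) : Step (l ++ X.bd f ++ r) (l ++ r)

/-- Homotopy (with fixed end points) of edge paths from `x` to `y`: the equivalence relation
generated by the elementary homotopies between edge paths from `x` to `y`. -/
def Homotopic (x y : X.V) : List (X.E × Bool) → List (X.E × Bool) → Prop :=
  Relation.EqvGen fun p q => X.Step p q ∧ X.Path x p y ∧ X.Path x q y

/-- The cellular 1-chain of an edge path. -/
noncomputable def chain (p : List (X.E × Bool)) : X.E →₀ ℤ :=
  (p.map fun eb => Finsupp.single eb.1 (if eb.2 then (1 : ℤ) else -1)).sum

/-- The cellular boundary map from 2-chains to 1-chains. -/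
noncomputable def d₂ (z : X.F →₀ ℤ) : X.E →₀ ℤ :=
  z.sum fun f n => n • X.chain (X.bd f)

/-- `X` is nonempty and any two vertices are joined by an edge path. -/
def IsConn : Prop := Nonempty X.V ∧ ∀ x y : X.V, ∃ p, X.Path x p y

/-- Every closed edge path is homotopic to the constant path. -/
def IsSimplyConn : Prop := ∀ (x : X.V) (p : List (X.E × Bool)), X.Path x p x →
  X.Homotopic x x p []

/-- The second cellular homology group of `X` vanishes: there is no 3-dimensional cell, so this
says that every 2-cycle is zero. -/
def H₂Zero : Prop := ∀ z : X.F →₀ ℤ, X.d₂ z = 0 → z = 0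

/-- A 2-dimensional complex is contractible iff it is connected, simply connected and has
vanishing second homology (theorems of Hurewicz and Whitehead). -/
def IsContractible : Prop := X.IsConn ∧ X.IsSimplyConn ∧ X.H₂Zero

end TwoComplex

/-- A free action of the group `G` on the 2-complex `X` by automorphisms of the complex.
(Freeness on vertices implies that no cell is stabilised by a nontrivial element.) -/
structure FreeAct (G : Type) [Group G] (X : TwoComplex) where
  aV : G → X.V → X.V
  aE : G → X.E → X.E
  aF : G → X.F → X.F
  oneV : ∀ x, aV 1 x = x
  oneE : ∀ e, aE 1 e = e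
  oneF : ∀ f, aF 1 f = f
  mulV : ∀ g h x, aV (g * h) x = aV g (aV h x)
  mulE : ∀ g h e, aE (g * h) e = aE g (aE h e)
  mulF : ∀ g h f, aF (g * h) f = aF g (aF h f)
  src_eq : ∀ g e, X.src (aE g e) = aV g (X.src e)
  tgt_eq : ∀ g e, X.tgt (aE g e) = aV g (X.tgt e)
  base_eq : ∀ g f, X.base (aF g f) = aV g (X.base f)
  bd_eq : ∀ g f, X.bd (aF g f) = (X.bd f).map fun eb => (aE g eb.1, eb.2)
  free : ∀ g x, aV g x = x → g = 1

/-- `G` acts freely on a contractible 2-complex; equivalently (quotient complex, universal
cover) `G` has a classifying space of dimension at most two. -/
def GeomDimLETwo (G : Type) [Group G] : Prop :=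
  ∃ X : TwoComplex, Nonempty (FreeAct G X) ∧ X.IsContractible

/-- The cohomological dimension of `G`: the projective dimension of the trivial module `ℤ`
over the integral group ring. -/
noncomputable def cohomDim (G : Type) [Group G] : WithBot ℕ∞ :=
  projectiveDimension (ModuleCat.of (MonoidAlgebra ℤ G) (Representation.trivial ℤ G ℤ).asModule)

end Vale.Agent.P173
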