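import Vale.Agent.Lib.P173.Main
import Vale.Agent.Lib.P173.W.Main
import Vale.Agent.Lib.P173.A.Main
import Vale.Agent.Lib.P173.L.Main
import Vale.Agent.Lib.P173.K.Main
import Vale.Agent.Lib.P173.B1.Final
import Vale.Agent.Lib.P173.B2.Main

/-! # P173: final theorem -/

namespace Vale.Agent.P173

theorem goal : Goal := main partW partA partL partK partB1 partB2

end Vale.Agent.P173
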