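import Vale.Agent.Lib.P173.Interface

/-! # P173: assembly -/

namespace Vale.Agent.P173

open CategoryTheory

/-- the vertex group: an elementary abelian 2-group of cardinality `ℵ₃` -/
abbrev AA : Type := Multiplicative ((Cardinal.aleph 3).out →₀ ZMod 2)

theorem AA_sq (a : AA) : a * a = 1 := by
  apply Multiplicative.toAdd.injective
  rw [toAdd_mul, toAdd_one]
  ext i
  rw [Finsupp.add_apply, Finsupp.zero_apply]
  exact CharTwo.add_self_eq_zero _

theorem AA_card : Cardinal.aleph 3 ≤ Cardinal.mk AA := by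
  have h : Function.Injective (fun i : (Cardinal.aleph 3).out =>
      (Multiplicative.ofAdd (Finsupp.single i (1 : ZMod 2)) : AA)) := by
    intro i j hij
    have h1 : Finsupp.single i (1 : ZMod 2) = Finsupp.single j 1 :=
      Multiplicative.ofAdd.injective hij
    exact Finsupp.single_left_injective one_ne_zero h1
  have h2 := Cardinal.mk_le_of_injective h
  rwa [Cardinal.mk_out] at h2

/-- separation of points from subgroups in an elementary abelian 2-group -/
theorem exists_char {A : Type} [CommGroup A] (hA : ∀ a : A, a * a = 1) (B : Subgroup A) (x : A)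
    (hx : x ∉ B) : ∃ φ : A →* Multiplicative (ZMod 2), (∀ b ∈ B, φ b = 1) ∧ φ x ≠ 1 := by
  have h2 : ∀ a : Additive A, (2 : ℕ) • a = 0 := fun a => by
    rw [two_nsmul]
    exact hA a.toMul
  let _ : Module (ZMod 2) (Additive A) := AddCommGroup.zmodModule h2
  obtain ⟨B', hB'⟩ : ∃ B' : Submodule (ZMod 2) (Additive A), ∀ a, a ∈ B' ↔ a.toMul ∈ B :=
    ⟨AddSubgroup.toZModSubmodule 2 (Subgroup.toAddSubgroup B), fun a => Iff.rfl⟩
  have hx' : Additive.ofMul x ∉ B' := fun h => hx ((hB' _).1 h)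
  obtain ⟨f, hf, hfB⟩ := Submodule.exists_le_ker_of_notMem hx'
  refine ⟨AddMonoidHom.toMultiplicativeRight (f : Additive A →+ ZMod 2), fun b hb => ?_,
    fun h => hf ?_⟩
  · have h1 : f (Additive.ofMul b) = 0 := hfB ((hB' _).2 hb)
    exact congrArg Multiplicative.ofAdd h1
  · exact congrArg Multiplicative.toAdd h

theorem cohomDim_eq_two (G : Type) [Group G]
    (h2 : HasProjectiveDimensionLE
      (ModuleCat.of (MonoidAlgebra ℤ G) (Representation.trivial ℤ G ℤ).asModule) 2)
    (h1 : ¬ HasProjectiveDimensionLE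
      (ModuleCat.of (MonoidAlgebra ℤ G) (Representation.trivial ℤ G ℤ).asModule) 1) :
    cohomDim G = 2 := by
  unfold cohomDim
  refine le_antisymm ?_ ?_
  · exact_mod_cast (projectiveDimension_le_iff _ 2).2 h2
  · exact_mod_cast (projectiveDimension_ge_iff _ 2).2 h1

theorem main (hW : PartW) (hA : PartA) (hL : PartL) (hK : PartK) (hB1 : PartB1)
    (hB2 : PartB2) : Goal := by
  obtain ⟨K, hc, hn, hp, h0, h1, h2, hf, hu, v, v', w, w', e1, e2, e3, e4, e5, e6, e7, e8⟩ := hK
  have ha : ∃ a : AA, a ≠ 1 := by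
    have hne : Nonempty (Cardinal.aleph 3).out := by
      rw [← Cardinal.mk_ne_zero_iff, Cardinal.mk_out]
      exact (Cardinal.aleph_pos 3).ne'
    obtain ⟨i⟩ := hne
    refine ⟨Multiplicative.ofAdd (Finsupp.single i 1), fun h => ?_⟩
    have h3 : Finsupp.single i (1 : ZMod 2) = 0 := Multiplicative.ofAdd.injective h
    exact one_ne_zero (Finsupp.single_eq_zero.1 h3)
  obtain ⟨a, ha⟩ := ha
  refine ⟨K.G AA, inferInstance, cohomDim_eq_two _ (hA K AA hn hW h0 h1 h2)
    (hL K AA a ha (AA_sq a) (fun B x hx => exists_char AA_sq B x hx) v v' w w' e1 e2 e3 e4 e5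
      e6 e7 e8), ?_⟩
  rintro ⟨X, ⟨act⟩, hX⟩
  obtain ⟨C⟩ := hB1 K AA hc hn hp AA_sq AA_card X act hX
  exact hB2 K hf hu X hX C

end Vale.Agent.P173
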